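import Vale.Agent.P154.AFK
import Vale.Agent.P154.AFDefs

/-! The checker for certificates in the antiferromagnetic three-state case: definitions. -/

namespace Vale.Agent.P154.AF

def fa : List ℕ := [0, 1, 0, 2, 1, 0, 3, 2, 1, 4]
def fb : List ℕ := [0, 0, 1, 0, 1, 2, 0, 1, 2, 0]
def fe : List ℕ := [0, 0, 1, 2, 3, 4, 4, 5, 6, 6]

def nus : List (List ℕ) := [
  [0, 0, 0],
  [1, 0, 0],
  [2, 0, 0], [1, 1, 0],
  [3, 0, 0], [2, 1, 0], [1, 1, 1],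
  [4, 0, 0], [3, 1, 0], [2, 2, 0], [2, 1, 1],
  [5, 0, 0], [4, 1, 0], [3, 2, 0], [3, 1, 1], [2, 2, 1],
  [6, 0, 0], [5, 1, 0], [4, 2, 0], [4, 1, 1], [3, 3, 0], [3, 2, 1], [2, 2, 2],
  [7, 0, 0], [6, 1, 0], [5, 2, 0], [5, 1, 1], [4, 3, 0], [4, 2, 1], [3, 3, 1], [3, 2, 2],
  [8, 0, 0], [7, 1, 0], [6, 2, 0], [6, 1, 1], [5, 3, 0], [5, 2, 1], [4, 4, 0], [4, 3, 1], [4, 2, 2], [3, 3, 2]]

def ccs : List (List ℤ) := [
  [6],
  [6],
  [6, 12],
  [6, -6],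
  [6, 36, 6],
  [6, 0, -3],
  [6, -18, 6],
  [6, 72, 24, 36],
  [6, 18, -3, -18],
  [6, 0, -12, 18],
  [6, -18, 6],
  [6, 120, 60, 180, 30],
  [6, 48, 6, -36, -15],
  [6, 12, -21, 18, 3],
  [6, -6, 6, -36, 12],
  [6, -24, 6, 18, -6],
  [6, 180, 120, 540, 180, 6, 108],
  [6, 90, 30, 0, -45, -3, -54],
  [6, 36, -24, 0, -18, -3, 54],
  [6, 18, 12, -108, 18, 6],
  [6, 18, -42, 54, 18, 6, -54],
  [6, -18, 3, 0, 9, -3],
  [6, -36, 12, 54, -36, 6],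
  [6, 252, 210, 1260, 630, 42, 756, 126],
  [6, 144, 75, 180, -45, -12, -216, -63],
  [6, 72, -15, 0, -90, -21, 162, 27],
  [6, 54, 30, -180, 0, 24, -108, 36],
  [6, 36, -60, 72, 9, 15, -54, -9],
  [6, 0, 3, -72, 27, -3, 54, -18],
  [6, -18, -6, 18, 36, -12, -54, 18],
  [6, -36, 12, 54, -36, 6],
  [6, 336, 336, 2520, 1680, 168, 3024, 1008, 48, 324],
  [6, 210, 147, 630, 105, -21, -378, -315, -24, -162],
  [6, 120, 12, 90, -210, -75, 270, 36, -6, 162],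
  [6, 102, 66, -180, -30, 60, -540, 90, 30],
  [6, 66, -69, 90, -75, 6, 108, 36, 21, -162],
  [6, 30, 12, -180, 15, 6, 108, 9, -15],
  [6, 48, -96, 144, 24, 60, -216, -72, -24, 162],
  [6, -6, -15, -18, 78, -21, -54, 9, 3],
  [6, -24, 12, -18, -12, 6, 108, -72, 12],
  [6, -42, 12, 90, -48, 6, -54, 36, -6]]

noncomputable def nu (j : ℕ) : List ℕ := nth [] nus j
noncomputable def cc (j i : ℕ) : ℤ := nth 0 (nth [] ccs j) i
noncomputable def vz (c : Cell) (v i : ℕ) : ℤ := Int.ofNat (vtx c v i)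
noncomputable def vS (c : Cell) (v : ℕ) : ℤ := Int.add (Int.add (vz c v 0) (vz c v 1)) (vz c v 2)

noncomputable def mkX {α : Type} (B : ℕ) (b0 b1 b2 s0 s1 s2 : ℤ) (k : Cx → α) : α :=
  fZ B fun B => fJ b0 fun b0 => fJ b1 fun b1 => fJ b2 fun b2 =>
  fJ s0 fun s0 => fJ s1 fun s1 => fJ s2 fun s2 => k ⟨B, b0, b1, b2, s0, s1, s2⟩

noncomputable def mapP {α : Type} (f : ℕ → P) (n : ℕ) (k : List P → α) : α :=
  mapL (fun i => fP (f i)) (List.range n) k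

noncomputable def qq (B : ℕ) (c : Cell) (i j : ℕ) : P :=
  m3 B (vz c 0 i) (vz c 1 i) (vz c 2 i) (m3 B (Int.sub (vz c 0 i) (vz c 0 j))
    (Int.sub (vz c 1 i) (vz c 1 j)) (Int.sub (vz c 2 i) (vz c 2 j)) pone)

noncomputable def mm (X : Cx) (c : Cell) (i : ℕ) (a : P) : P :=
  m3 X.B (Int.sub (Int.mul 3 (vz c 0 i)) X.s0) (Int.sub (Int.mul 3 (vz c 1 i)) X.s1)
    (Int.sub (Int.mul 3 (vz c 2 i)) X.s2) a

noncomputable def feats {α : Type} (X : Cx) (c : Cell) (k : List P → α) : α :=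
  fP (padd X (padd X (qq X.B c 0 1) (qq X.B c 1 2)) (qq X.B c 2 0)) fun h =>
  fP (mm X c 0 (mm X c 1 (mm X c 2 pone))) fun T =>
  mapP (fun i => lift X 0 0 0 8 (iter (nth 0 fa i) (pmul h) (iter (nth 0 fb i) (pmul T) pone))) 10 k

noncomputable def evP (X : Cx) (us : List P) (a : ℕ → P) : P :=
  sumP X 10 fun i => pmul (a i) (nth pzero us i)

noncomputable def evC (X : Cx) (us : List P) (j : ℕ) : P :=
  sumP X 10 fun i => psm (cc j i) (nth pzero us i)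

noncomputable def t3 (B i : ℕ) (a : P) : P :=
  m3 B (nth 0 [3, 0, 0] i) (nth 0 [0, 3, 0] i) (nth 0 [0, 0, 3] i) a

noncomputable def msP (X : Cx) (ν : List ℕ) : P :=
  sumP X 6 fun u => iter (nth 0 ν 0) (t3 X.B (nth 0 (nth [] tbl3 u) 0))
    (iter (nth 0 ν 1) (t3 X.B (nth 0 (nth [] tbl3 u) 1))
      (iter (nth 0 ν 2) (t3 X.B (nth 0 (nth [] tbl3 u) 2)) pone))

def cell1 : Cell := [[1, 0, 0], [0, 1, 0], [0, 0, 1]]

noncomputable def tabChk (B : ℕ) : Bool :=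
  mkX (B + 1) 1 1 1 1 1 1 fun X => feats X cell1 fun us => allN 41 fun j =>
    fP (padd X (msP X (nu j)) (psm (-1) (evC X us j))) fun e =>
      Bool.and (nnP B e) (nnP B (psm (-1) e))

structure Dat where
  reg : ℤ
  B : ℕ
  BM : ℕ
  B1 : ℕ
  bx : ℕ
  x0 : ℕ
  x1 : ℕ
  bw : ℕ
  aw : ℕ
  bs : ℕ
  s0 : ℕ
  s1 : ℕ
  bW : ℕ
  Ws : List ℕ
  sg : ℤ
  t0 : ℤ
  t1 : ℤ
  t2 : ℤ
  tb : ℤ
  eps : ℕ
  tp : Tr
  tr : Tr
  tm : Tr
  w : ℕ
  v : ℕ
  al : ℕ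
  be : ℕ
  ga : ℕ

/-- entry `(i, j, k)` of a table of integers packed into one natural number -/
noncomputable def zz (w M i j k : ℕ) : ℤ :=
  fZ (Nat.mod (Nat.shiftRight M (Nat.mul w (Nat.add (Nat.mul 4 (Nat.add (Nat.mul 4 i) j)) k)))
    (Nat.shiftLeft 1 w)) fun f =>
  Bool.rec (Int.negSucc (Nat.div f 2)) (Int.ofNat (Nat.div f 2)) (Nat.beq (Nat.mod f 2) 0)

noncomputable def vP (B : ℕ) (D : Dat) (e i : ℕ) : P := dat B 3 0 fun _ => zz D.w D.v i e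

noncomputable def prep {α : Type} (B : ℕ) (D : Dat) (c : Cell)
    (k : Cx → List P → List P → P → List P → α) : α :=
  mkX B D.bx D.bw D.bs (vS c 0) (vS c 1) (vS c 2) fun X =>
  feats X c fun us =>
  mapP (fun e => evP X us (vP X.B D e)) 4 fun V =>
  fP (padd X (nth pzero V 0) (m1 X.B 0 D.aw (padd X (nth pzero V 1) (m1 X.B 0 D.aw
    (padd X (nth pzero V 2) (m1 X.B 0 D.aw (nth pzero V 3))))))) fun Vw =>
  mapP (fun j => pmul (dat X.B 3 3 (zz D.w D.ga j)) (evC X us j)) 41 fun G => k X us V Vw G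

noncomputable def sP (X : Cx) (D : Dat) (a : P) : P := m2 X.B (-D.s0) (-D.s1) a
noncomputable def xP (X : Cx) (D : Dat) (a : P) : P := m0 X.B D.x0 D.x1 a
noncomputable def wP (X : Cx) (D : Dat) (a : P) : P := m1 X.B 0 D.aw a

noncomputable def dVP (X : Cx) (D : Dat) (V : List P) : P :=
  padd X (padd X (nth pzero V 1) (wP X D (padd X (psm 2 (nth pzero V 2))
      (wP X D (psm 3 (nth pzero V 3))))))
    (psm D.reg (sP X D (sP X D (padd X (padd X (nth pzero V 2) (wP X D (psm 3 (nth pzero V 3))))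
      (sP X D (sP X D (nth pzero V 3)))))))

noncomputable def exP (X : Cx) (D : Dat) (V : List P) (A Be : P) : List P :=
  [padd X (dVP X D V) (psm (-1) (padd X (xP X D A) (psm D.sg (padd X (psm D.t0 Be)
      (xP X D (padd X (psm D.t1 Be) (xP X D (psm D.t2 Be)))))))),
    psm 2 A, psm (D.sg * D.tb) Be]

noncomputable def pairChk (D : Dat) (c : Cell) (rs : List Cell) : Bool :=
  prep (D.B + 1) D c fun X us V Vw G =>
  fP (evP X us fun i => dat X.B 2 3 (zz D.w D.al i)) fun A =>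
  fP (evP X us fun i => dat X.B 1 3 (zz D.w D.be i)) fun Be =>
  mapP (fun b => sumP X 41 fun j => psm (cc j b) (nth pzero G j)) 10 fun Q =>
  Bool.and (Bool.and (nnP D.B (padd X (psm 6 Vw) (psm (-1) (nth pzero Q 0)))) (nnP D.B Be))
  (mapP (fun b => lift X 3 3 6 8 (padd X
      (psm 6 (padd X (vP X.B D 0 b) (nth pzero (exP X D V A Be) b)))
      (psm (nth (-1) [0] b) (iter (nth 0 fe b) (sP X D) (nth pzero Q b))))) 10 fun vs =>
    prepV D.B 6 vs fun o ws => allN rs.length fun j =>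
      mkX (D.B1 + 1) 1 1 1 (vS (nth [] rs j) 0) (vS (nth [] rs j) 1) (vS (nth [] rs j) 2) fun Y =>
        feats Y (nth [] rs j) fun ur => bilU D.B1 D.B o (Nat.mul 73 j) ws ur)

noncomputable def majChk (D : Dat) (c : Cell) : Bool :=
  prep (D.BM + 1) D c fun X _ _ Vw G =>
  mapP (fun k => lift X 3 3 0 8 (padd X
      (sumP X 41 fun j => Bool.rec pzero (nth pzero G j) (Nat.beq (nu j).sum k))
      (psm (nth 0 [0, -1] k) Vw))) 9 fun vs =>
    prepV D.BM 0 vs fun o ws => allN (D.Ws.length - 1) fun j =>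
      mkX (D.B1 + 1) 1 1 1 D.bW D.bW 0 fun Y =>
        mapP (fun k => lift Y 0 0 0 8 (iter k (m3 Y.B (nth 0 D.Ws j : ℕ) (nth 0 D.Ws (j + 1) : ℕ) 0)
          pone)) 9 fun us => bilU D.B1 D.BM o (Nat.mul 73 j) ws us

def okTr3 : Tr → Bool
  | .leaf => true
  | .node i j a b l r => decide (i < 3) && decide (j < 3) && decide (i ≠ j) && decide (0 < a)
      && decide (0 < b) && okTr3 l && okTr3 r

noncomputable def restChk (D : Dat) : Bool :=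
  decide (0 < D.bx ∧ 0 < D.bw ∧ 0 < D.aw ∧ 0 < D.bs ∧ 0 < D.bW ∧ 0 < D.eps ∧ 2 ≤ D.Ws.length ∧
    nth 0 D.Ws 0 * D.bs + 2 * D.s1 * D.bW ≤ D.bs * D.bW ∧
    (D.bs + D.s1) * D.bW ≤ nth 0 D.Ws (D.Ws.length - 1) * D.bs) &&
  okTr3 D.tp && okTr3 D.tr && okTr3 D.tm &&
  (mkX (D.B + 1) D.bx D.bw D.bs 1 1 1 fun X => nnP D.B (psm (-1) (padd X
    (sumP X 4 fun e => vP X.B D e 0) (psm D.eps (xP X D (xP X D pone)))))) &&
  allL (cellsOf 3 D.tm root3) (majChk D)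

noncomputable def pairAt (D : Dat) (i : ℕ) : Bool :=
  pairChk D (nth [] (cellsOf 3 D.tp root3) i) (cellsOf 3 D.tr root3)

end Vale.Agent.P154.AF
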