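import Vale.Agent.P154.Bil
import Vale.Agent.P154.LatData

/-! The kernel program of the lattice computation. -/

namespace Vale.Agent.P154.Lat

open Vale.Agent.P154

def wShr (_ X B : ℕ) : ℕ := Nat.shiftRight X B
def wMod (_ X P : ℕ) : ℕ := Nat.mod X P
def wDig (V X P sh : ℕ) : ℕ := Nat.shiftRight (wMod V X P) sh

/-- `acc + sum_k (digit k of X / 2^sh) * V_k` -/
noncomputable def dot (B P sh : ℕ) (Vs : List ℕ) : ℕ → ℕ → ℕ :=
  List.rec (fun _ acc => acc)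
    (fun V _ ih X acc => fZ (wShr V X B) fun X' =>
      Nat.rec (ih X' acc)
        (fun m _ => fZ (Nat.add acc (Nat.mul (Nat.succ m) V)) fun acc' => ih X' acc')
        (wDig V X P sh)) Vs

noncomputable def rdAll (P P2 : ℕ) (rows : List (ℕ × List ℕ)) : ℕ → ℕ → ℕ :=
  List.rec (fun _ acc => acc)
    (fun row _ ih X acc => Prod.rec (fun s Vs =>
      fZ (Nat.shiftRight (Nat.mod X P2) (Nat.mul 96 s)) fun Rw =>
      fZ (dot 96 P 0 Vs Rw acc) fun acc' =>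
      fZ (Nat.shiftRight X 10848) fun X' => ih X' acc') row) rows

/-- the field of `x` of modulus `P` starting at bit `o` -/
def fld (x o P : ℕ) : ℕ := Nat.mod (Nat.shiftRight x o) P

def a0 (j : ℕ) : ℕ := fld atmN (Nat.mul 10 j) 32
def a1 (j : ℕ) : ℕ := fld atmN (Nat.add (Nat.mul 10 j) 5) 32
def a2 (j : ℕ) : ℕ := Nat.sub (Nat.sub 54 (a0 j)) (a1 j)

def kr (a c : ℕ) : ℕ := Nat.shiftLeft 1 (Nat.mul 96 (Nat.add a (Nat.mul 113 c)))

def yy (j : ℕ) : ℕ :=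
  Nat.add (Nat.add (Nat.add (Nat.add (Nat.add (kr (a0 j) (a2 j)) (kr (a0 j) (a1 j)))
    (kr (a1 j) (a2 j))) (kr (a1 j) (a0 j))) (kr (a2 j) (a1 j))) (kr (a2 j) (a0 j))

def pl (c j : ℕ) : ℕ := Nat.shiftLeft c (Nat.mul 116 (Nat.succ j))

def mkV (x : ℕ) : ℕ :=
  Nat.add (Nat.add (Nat.add (Nat.add (fld x 8 1073741824)
    (pl (fld x 8 1073741824) (fld x 0 64))) (pl (fld x 46 1073741824) (fld x 38 64)))
    (pl (fld x 84 1073741824) (fld x 76 64))) (pl (Nat.shiftRight x 144) 38)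

noncomputable def mkT {α : Type} (T : List (ℕ × List ℕ)) : (List (ℕ × List ℕ) → α) → α :=
  mapL (fun row k => Prod.rec (fun s xs => fZ s fun s' =>
    mapL (fun x => fZ (mkV x)) xs fun Vs => k (s', Vs)) row) T

noncomputable def step (H P P1 P2 : ℕ) (T1 T2 : List (ℕ × List ℕ)) (Ys sx : List ℕ) (acc : ℕ) : ℕ :=
  fZ (Nat.shiftRight acc 4524) fun mu =>
  fZ (Nat.shiftRight (Nat.sub H mu) 92) fun z =>
  fZ (Nat.shiftRight acc 116) fun X =>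
  fZ (dot 116 P1 92 Ys X 0) fun G =>
  fZ (dot 116 P1 92 sx X z) fun tot =>
  Bool.rec 0
    (fZ (Nat.mul G G) fun G2 => fZ (Nat.mul G2 G2) fun G4 =>
      fZ (Nat.add G (Nat.mul z (kr 18 18))) fun A => fZ (Nat.mul A A) fun A2 =>
      fZ (Nat.sub (Nat.mul A2 A2) G4) fun Q =>
      fZ (rdAll P P2 T2 Q 0) fun a => rdAll P P2 T1 G4 a)
    (Bool.and (Nat.ble mu H) (Nat.ble tot 16777215))

noncomputable def iter (f : ℕ → ℕ) (n : ℕ) : ℕ → ℕ :=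
  Nat.rec (fun a => a) (fun _ ih a => fZ (f a) ih) n

def jl : List ℕ := [0, 1, 2, 3, 4, 5, 6, 7, 8, 9, 10, 11, 12, 13, 14, 15, 16, 17, 18, 19, 20, 21, 22,
  23, 24, 25, 26, 27, 28, 29, 30, 31, 32, 33, 34, 35, 36, 37]

noncomputable def run (n acc : ℕ) : ℕ :=
  fZ (Nat.shiftLeft 1 115) fun H => fZ (Nat.shiftLeft 1 96) fun P =>
  fZ (Nat.shiftLeft 1 116) fun P1 => fZ (Nat.shiftLeft 1 10848) fun P2 =>
  mkT tb1 fun T1 => mkT tb2 fun T2 =>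
  mapL (fun j => fZ (yy j)) jl fun Ys => mapL (fun _ => fZ 6) jl fun sx =>
  iter (step H P P1 P2 T1 T2 Ys sx) n acc

/-! the check of the tables -/

def pw (e : ℕ) : ℕ := Nat.mul (Nat.shiftLeft 1 (Nat.mul 3 e)) (Nat.pow 7 (Nat.sub 216 e))

noncomputable def mult (a b c : ℕ) : ℕ :=
  Bool.rec (Bool.rec 0 (Bool.rec (Bool.rec 0 1 (Nat.beq a b)) 3 (Nat.blt b a)) (Nat.beq b c))
    (Bool.rec (Bool.rec 0 3 (Nat.beq a b)) 6 (Nat.blt b a)) (Nat.blt c b)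

noncomputable def sw {α : Type} (b x y : ℕ) (k : ℕ → ℕ → α) : α :=
  Nat.rec (k x y) (fun _ _ => k y x) b

/-- the permuted atom, as powers -/
noncomputable def pm {α : Type} (j p : ℕ) (k : ℕ → ℕ → ℕ → α) : α :=
  fZ (pw (Nat.add (a0 j) 54)) fun x => fZ (pw (Nat.add (a1 j) 54)) fun y =>
  fZ (pw (Nat.add (a2 j) 54)) fun z =>
  sw (Nat.mod p 2) y z fun y' z' => sw (Nat.div p 2) x y' fun x' y'' => k x' y'' z'

def lin3 (c1 x1 c2 x2 c3 x3 : ℕ) : ℕ :=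
  Nat.mul 6 (Nat.add (Nat.add (Nat.mul c1 x1) (Nat.mul c2 x2)) (Nat.mul c3 x3))

noncomputable def chk (fl r k x : ℕ) : Bool :=
  fZ (Nat.sub (Nat.sub 216 r) k) fun e =>
  fZ (Nat.mul 1048576 (mult (Nat.succ k) (Nat.succ e) (Nat.mul fl (Nat.succ r)))) fun m =>
  fZ (pw k) fun v0 => fZ (pw e) fun v1 => fZ (Nat.mul fl (pw r)) fun v2 => fZ (pw 72) fun u =>
  fZ (fld x 0 64) fun j1 => fZ (fld x 38 64) fun j2 => fZ (fld x 76 64) fun j3 =>
  fZ (fld x 8 1073741824) fun c1 => fZ (fld x 46 1073741824) fun c2 =>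
  fZ (fld x 84 1073741824) fun c3 => fZ (fld x 114 1073741824) fun ze =>
  fZ (Nat.shiftRight x 144) fun mu =>
  pm j1 (fld x 6 4) fun x1 y1 z1 => pm j2 (fld x 44 4) fun x2 y2 z2 =>
  pm j3 (fld x 82 4) fun x3 y3 z3 =>
  Bool.and (Bool.and (Bool.and (Nat.blt j1 38) (Nat.blt j2 38)) (Bool.and (Nat.blt j3 38)
      (Nat.ble (Nat.add (Nat.add (Nat.add c1 c1) c2) c3) mu)))
    (Bool.and (Bool.and
      (Nat.ble (Nat.mul 2 (lin3 c1 x1 c2 x2 c3 x3)) (Nat.mul m (Nat.add v1 v2)))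
      (Nat.ble (Nat.mul 2 (Nat.add (lin3 c1 y1 c2 y2 c3 y3) (Nat.mul ze u)))
        (Nat.mul m (Nat.add v0 v2))))
    (Bool.and
      (Nat.ble (Nat.mul 2 (Nat.add (lin3 c1 z1 c2 z2 c3 z3) (Nat.mul ze u)))
        (Nat.mul m (Nat.add v0 v1)))
      (Nat.ble (Nat.mul m (Nat.add (Nat.add v0 v1) v2))
        (Nat.mul (Nat.mul 2 (Nat.add (Nat.mul 3 mu) ze)) u))))

noncomputable def chkRow (fl r : ℕ) (xs : List ℕ) : ℕ → Bool :=
  List.rec (fun k => Nat.ble k 113)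
    (fun x _ ih k => Bool.rec false (fZ (Nat.succ k) ih) (chk fl r k x)) xs

noncomputable def chkAll (fl : ℕ) (rows : List (ℕ × List ℕ)) : ℕ → Bool :=
  List.rec (fun r => Nat.ble r 217)
    (fun row _ ih r => Prod.rec (fun s xs =>
      Bool.rec false (fZ (Nat.succ r) ih) (chkRow fl r xs s)) row) rows

def ff (j : ℕ) : ℕ :=
  Nat.div (Nat.mul 12582912 (Nat.add (Nat.add (pw (Nat.add (a0 j) (a1 j)))
      (pw (Nat.add (a0 j) (a2 j)))) (pw (Nat.add (a1 j) (a2 j)))))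
    (Nat.add (Nat.add (pw (Nat.add (a0 j) 18)) (pw (Nat.add (a1 j) 18))) (pw (Nat.add (a2 j) 18)))

noncomputable def fin (acc : ℕ) : Bool :=
  Bool.and (Nat.ble (Nat.shiftRight acc 4524) (Nat.shiftLeft 1 115))
    (Nat.ble 32985348833280 (dot 116 (Nat.shiftLeft 1 116) 92 (jl.map ff) (Nat.shiftRight acc 116) 0))

end Vale.Agent.P154.Lat
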