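import Vale.Agent.P154.Cert

namespace Vale.Agent.P154.Q3

def cpsi : PE := [(2, 2, 0, 0), (-15, 0, 1, 0)]

def cal1 : PE := [(4566, 1, 0, 0), (-1217, 0, 1, 0), (-545, 2, 0, 0)]

def cphi1 : PE := [(1620000, 1, 0, 0)]

def gs1 : GS := [
  [(6399, [0, 0, 0])],
  [(1666332, [1, 0, 0])],
  [(-76707, [2, 0, 0]), (-5033988, [1, 1, 0])],
  [(39420, [3, 0, 0]), (3777624, [2, 1, 0]), (1956150, [1, 1, 1])],
  [(-8760, [4, 0, 0]), (-617100, [3, 1, 0]), (-599580, [2, 2, 0]), (-1686186, [2, 1, 1])],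
  [(730, [5, 0, 0]), (37708, [4, 1, 0]), (105824, [3, 2, 0]), (156614, [3, 1, 1]), (275520, [2, 2, 1])]]

def tA1 : List Trm := [
  (48600000, Sum.inr [(1, 1, 0, 0)], Sum.inr [(1, 0, 0, 0)]),
  (48600000, Sum.inr [(1, 0, 0, 0)], Sum.inr [(1, 1, 0, 0)]),
  (216, Sum.inr cpsi, Sum.inr cal1),
  (216, Sum.inr cal1, Sum.inr cpsi),
  (-54000, Sum.inr [(1, 2, 0, 0)], Sum.inr [(1, 1, 0, 0)]),
  (-54000, Sum.inr [(1, 1, 0, 0)], Sum.inr [(1, 2, 0, 0)])]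

def tR1 : List Trm := [
  (1, Sum.inr [(1, 1, 0, 0)], Sum.inr [(341010, 1, 0, 0), (156240, 0, 1, 0), (44688, 2, 0, 0), (-39540, 1, 1, 0)]),
  (1, Sum.inr [(1, 0, 1, 0)], Sum.inr [(156240, 1, 0, 0), (-13140, 0, 1, 0), (-90006, 2, 0, 0), (76020, 1, 1, 0)]),
  (1, Sum.inr [(1, 2, 0, 0)], Sum.inr [(44688, 1, 0, 0), (-90006, 0, 1, 0), (-49530, 2, 0, 0), (57780, 1, 1, 0)]),
  (1, Sum.inr [(1, 1, 1, 0)], Sum.inr [(-39540, 1, 0, 0), (76020, 0, 1, 0), (57780, 2, 0, 0), (-72985, 1, 1, 0)])]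

def tr1 : Tr := .leaf

def cells1 : List Cell := [[[1, 1, 1], [0, 1, 1], [0, 0, 1], [0, 0, 0]]]

lemma cov1 : Covers 3 cells1 := by
  have h : cellsOf 3 tr1 root3 = cells1 := by decide +kernel
  exact h ▸ covers_of_root covers_root3 rfl tr1 (by decide)

def cal2 : PE := [(-156073, 1, 0, 0), (35094, 0, 1, 0), (14130, 2, 0, 0), (300000, 0, 0, 0)]

def cphi2 : PE := [(116640000, 2, 0, 0), (-874800000, 0, 1, 0)]

def gs2 : GS := [
  [(955719, [0, 0, 0])],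
  [(151178562, [1, 0, 0])],
  [(-557596062, [2, 0, 0]), (4655666646, [1, 1, 0])],
  [(394118298, [3, 0, 0]), (-15140165058, [2, 1, 0]), (-9357973740, [1, 1, 1])],
  [(-149184666, [4, 0, 0]), (9332390376, [3, 1, 0]), (14953407408, [2, 2, 0]), (29860578720, [2, 1, 1])],
  [(32523930, [5, 0, 0]), (-2938325544, [4, 1, 0]), (-18291817548, [3, 2, 0]), (-13212923148, [3, 1, 1]), (-28020228912, [2, 2, 1])],
  [(-4069683, [6, 0, 0]), (500984028, [5, 1, 0]), (5204234124, [4, 2, 0]), (2841487614, [4, 1, 1]), (4713234642, [3, 3, 0]), (20689454484, [3, 2, 1]), (5751451980, [2, 2, 2])],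
  [(270624, [7, 0, 0]), (-43763790, [6, 1, 0]), (-716679162, [5, 2, 0]), (-287660160, [5, 1, 1]), (-1951595016, [4, 3, 0]), (-3334558158, [4, 2, 1]), (-2815084236, [3, 3, 1]), (-4075154856, [3, 2, 2])],
  [(-7396, [8, 0, 0]), (1529420, [7, 1, 0]), (38735446, [6, 2, 0]), (10509322, [6, 1, 1]), (144967868, [5, 3, 0]), (195046836, [5, 2, 1]), (107776634, [4, 4, 0]), (498808300, [4, 3, 1]), (323924592, [4, 2, 2]), (493551562, [3, 3, 2])]]

def tA2 : List Trm := [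
  (5832, Sum.inr cpsi, Sum.inr cal2),
  (5832, Sum.inr cal2, Sum.inr cpsi)]

def tR2 : List Trm := [
  (1, Sum.inr [(1, 1, 0, 0)], Sum.inr [(64252893600, 1, 0, 0), (-141800181120, 0, 1, 0), (-6750609984, 2, 0, 0), (59540365440, 1, 1, 0), (-7141335840, 3, 0, 0), (1279450080, 2, 1, 0), (-620848800, 1, 2, 0), (40275360, 4, 0, 0)]),
  (1, Sum.inr [(1, 0, 1, 0)], Sum.inr [(-141800181120, 1, 0, 0), (20543803200, 0, 1, 0), (81638762112, 2, 0, 0), (-16327889280, 1, 1, 0), (-21258573120, 0, 2, 0), (-12363496560, 3, 0, 0), (8105657040, 2, 1, 0), (-710778240, 1, 2, 0), (120826080, 4, 0, 0)]),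
  (1, Sum.inr [(1, 2, 0, 0)], Sum.inr [(-6750609984, 1, 0, 0), (81638762112, 0, 1, 0), (2510219160, 2, 0, 0), (-49410103680, 1, 1, 0), (-13821237360, 0, 2, 0), (3639704220, 3, 0, 0), (6573442680, 2, 1, 0), (507111840, 1, 2, 0), (-459083970, 4, 0, 0)]),
  (1, Sum.inr [(1, 1, 1, 0)], Sum.inr [(59540365440, 1, 0, 0), (-16327889280, 0, 1, 0), (-49410103680, 2, 0, 0), (1070891280, 1, 1, 0), (32601482640, 0, 2, 0), (10784661300, 3, 0, 0), (-5966719740, 2, 1, 0), (2391569280, 1, 2, 0), (-951730740, 4, 0, 0)]),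
  (1, Sum.inr [(1, 0, 2, 0)], Sum.inr [(-21258573120, 0, 1, 0), (-13821237360, 2, 0, 0), (32601482640, 1, 1, 0), (-37360997280, 0, 2, 0), (8137824840, 3, 0, 0), (-6235927560, 2, 1, 0), (7862711040, 1, 2, 0), (-1007875980, 4, 0, 0)]),
  (1, Sum.inr [(1, 3, 0, 0)], Sum.inr [(-7141335840, 1, 0, 0), (-12363496560, 0, 1, 0), (3639704220, 2, 0, 0), (10784661300, 1, 1, 0), (8137824840, 0, 2, 0), (-2494357470, 3, 0, 0), (-1345273650, 2, 1, 0), (-1943836920, 1, 2, 0), (431239545, 4, 0, 0)]),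
  (1, Sum.inr [(1, 2, 1, 0)], Sum.inr [(1279450080, 1, 0, 0), (8105657040, 0, 1, 0), (6573442680, 2, 0, 0), (-5966719740, 1, 1, 0), (-6235927560, 0, 2, 0), (-1345273650, 3, 0, 0), (-425237940, 2, 1, 0), (330566400, 1, 2, 0), (343130490, 4, 0, 0)]),
  (1, Sum.inr [(1, 1, 2, 0)], Sum.inr [(-620848800, 1, 0, 0), (-710778240, 0, 1, 0), (507111840, 2, 0, 0), (2391569280, 1, 1, 0), (7862711040, 0, 2, 0), (-1943836920, 3, 0, 0), (330566400, 2, 1, 0), (-2290944240, 1, 2, 0), (359714880, 4, 0, 0)]),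
  (1, Sum.inr [(1, 4, 0, 0)], Sum.inr [(40275360, 1, 0, 0), (120826080, 0, 1, 0), (-459083970, 2, 0, 0), (-951730740, 1, 1, 0), (-1007875980, 0, 2, 0), (431239545, 3, 0, 0), (343130490, 2, 1, 0), (359714880, 1, 2, 0), (-122074910, 4, 0, 0)])]

def tr2 : Tr := (.node 0 2 1 3 (.node 0 1 2 3 .leaf .leaf) (.node 1 2 1 2 .leaf .leaf))

def cells2 : List Cell := [[[1, 1, 1], [2, 5, 5], [1, 1, 4], [0, 0, 0]], [[2, 5, 5], [0, 1, 1], [1, 1, 4], [0, 0, 0]], [[1, 1, 4], [0, 1, 1], [0, 1, 3], [0, 0, 0]], [[1, 1, 4], [0, 1, 3], [0, 0, 1], [0, 0, 0]]]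

lemma cov2 : Covers 3 cells2 := by
  have h : cellsOf 3 tr2 root3 = cells2 := by decide +kernel
  exact h ▸ covers_of_root covers_root3 rfl tr2 (by decide)

end Vale.Agent.P154.Q3
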