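import Vale.Agent.P154.Q4Data
import Vale.Agent.P154.Q4Maj2

namespace Vale.Agent.P154.Q4

lemma oktm1 : okTerms 4 7 (scaleT (3 : ℕ) (tA1 ++ gTerms (5 : ℕ) 4 7 gs1) ++ scaleT (-((1 : ℕ) : ℤ)) tR1) = true := by decide +kernel

lemma oktr1 : okTerms 4 7 tR1 = true := by decide +kernel

lemma red1 : pairChk 78 109 4 7 tbl4 (scaleT (3 : ℕ) (tA1 ++ gTerms (5 : ℕ) 4 7 gs1) ++ scaleT (-((1 : ℕ) : ℤ)) tR1) [root4] [root4] = true := by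
  decide +kernel

lemma pair1_0_0 : pairChk 47 126 4 7 tbl4 tR1 [[[1, 1, 1, 1], [0, 1, 1, 1], [1, 1, 3, 3], [1, 1, 1, 5]]] [[[1, 1, 1, 1], [0, 1, 1, 1], [1, 1, 3, 3], [1, 1, 1, 5]]] = true := by
  decide +kernel

lemma pair1_0_1 : pairChk 47 126 4 7 tbl4 tR1 [[[1, 1, 1, 1], [0, 1, 1, 1], [1, 1, 3, 3], [1, 1, 1, 5]]] [[[1, 1, 3, 3], [0, 1, 1, 1], [0, 0, 1, 1], [1, 1, 1, 5]]] = true := by
  decide +kernel

lemma pair1_0_2 : pairChk 47 126 4 7 tbl4 tR1 [[[1, 1, 1, 1], [0, 1, 1, 1], [1, 1, 3, 3], [1, 1, 1, 5]]] [[[1, 1, 1, 5], [0, 1, 1, 1], [0, 0, 1, 1], [0, 1, 1, 4]]] = true := by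
  decide +kernel

lemma pair1_0_3 : pairChk 47 126 4 7 tbl4 tR1 [[[1, 1, 1, 1], [0, 1, 1, 1], [1, 1, 3, 3], [1, 1, 1, 5]]] [[[1, 1, 1, 5], [0, 1, 1, 4], [0, 0, 1, 1], [0, 0, 0, 1]]] = true := by
  decide +kernel

lemma pair1_1_0 : pairChk 47 126 4 7 tbl4 tR1 [[[1, 1, 3, 3], [0, 1, 1, 1], [0, 0, 1, 1], [1, 1, 1, 5]]] [[[1, 1, 1, 1], [0, 1, 1, 1], [1, 1, 3, 3], [1, 1, 1, 5]]] = true := by
  decide +kernel

lemma pair1_1_1 : pairChk 47 126 4 7 tbl4 tR1 [[[1, 1, 3, 3], [0, 1, 1, 1], [0, 0, 1, 1], [1, 1, 1, 5]]] [[[1, 1, 3, 3], [0, 1, 1, 1], [0, 0, 1, 1], [1, 1, 1, 5]]] = true := by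
  decide +kernel

lemma pair1_1_2 : pairChk 47 126 4 7 tbl4 tR1 [[[1, 1, 3, 3], [0, 1, 1, 1], [0, 0, 1, 1], [1, 1, 1, 5]]] [[[1, 1, 1, 5], [0, 1, 1, 1], [0, 0, 1, 1], [0, 1, 1, 4]]] = true := by
  decide +kernel

lemma pair1_1_3 : pairChk 47 126 4 7 tbl4 tR1 [[[1, 1, 3, 3], [0, 1, 1, 1], [0, 0, 1, 1], [1, 1, 1, 5]]] [[[1, 1, 1, 5], [0, 1, 1, 4], [0, 0, 1, 1], [0, 0, 0, 1]]] = true := by
  decide +kernel

lemma pair1_2_0 : pairChk 47 126 4 7 tbl4 tR1 [[[1, 1, 1, 5], [0, 1, 1, 1], [0, 0, 1, 1], [0, 1, 1, 4]]] [[[1, 1, 1, 1], [0, 1, 1, 1], [1, 1, 3, 3], [1, 1, 1, 5]]] = true := by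
  decide +kernel

lemma pair1_2_1 : pairChk 47 126 4 7 tbl4 tR1 [[[1, 1, 1, 5], [0, 1, 1, 1], [0, 0, 1, 1], [0, 1, 1, 4]]] [[[1, 1, 3, 3], [0, 1, 1, 1], [0, 0, 1, 1], [1, 1, 1, 5]]] = true := by
  decide +kernel

lemma pair1_2_2 : pairChk 47 126 4 7 tbl4 tR1 [[[1, 1, 1, 5], [0, 1, 1, 1], [0, 0, 1, 1], [0, 1, 1, 4]]] [[[1, 1, 1, 5], [0, 1, 1, 1], [0, 0, 1, 1], [0, 1, 1, 4]]] = true := by
  decide +kernel

lemma pair1_2_3 : pairChk 47 126 4 7 tbl4 tR1 [[[1, 1, 1, 5], [0, 1, 1, 1], [0, 0, 1, 1], [0, 1, 1, 4]]] [[[1, 1, 1, 5], [0, 1, 1, 4], [0, 0, 1, 1], [0, 0, 0, 1]]] = true := by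
  decide +kernel

lemma pair1_3_0 : pairChk 47 126 4 7 tbl4 tR1 [[[1, 1, 1, 5], [0, 1, 1, 4], [0, 0, 1, 1], [0, 0, 0, 1]]] [[[1, 1, 1, 1], [0, 1, 1, 1], [1, 1, 3, 3], [1, 1, 1, 5]]] = true := by
  decide +kernel

lemma pair1_3_1 : pairChk 47 126 4 7 tbl4 tR1 [[[1, 1, 1, 5], [0, 1, 1, 4], [0, 0, 1, 1], [0, 0, 0, 1]]] [[[1, 1, 3, 3], [0, 1, 1, 1], [0, 0, 1, 1], [1, 1, 1, 5]]] = true := by
  decide +kernel

lemma pair1_3_2 : pairChk 47 126 4 7 tbl4 tR1 [[[1, 1, 1, 5], [0, 1, 1, 4], [0, 0, 1, 1], [0, 0, 0, 1]]] [[[1, 1, 1, 5], [0, 1, 1, 1], [0, 0, 1, 1], [0, 1, 1, 4]]] = true := by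
  decide +kernel

lemma pair1_3_3 : pairChk 47 126 4 7 tbl4 tR1 [[[1, 1, 1, 5], [0, 1, 1, 4], [0, 0, 1, 1], [0, 0, 0, 1]]] [[[1, 1, 1, 5], [0, 1, 1, 4], [0, 0, 1, 1], [0, 0, 0, 1]]] = true := by
  decide +kernel

lemma pairok1 : PairOk 4 7 tbl4 tR1 cells1 cells1 := by
  intro c hc c' hc'
  simp only [cells1, List.mem_cons, List.not_mem_nil, or_false] at hc hc'
  rcases hc with rfl | rfl | rfl | rfl <;> rcases hc' with rfl | rfl | rfl | rfl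
  exacts [pairChk_sound permTbl4.ok oktr1 pair1_0_0 _ (List.mem_singleton.2 rfl) _ (List.mem_singleton.2 rfl),
    pairChk_sound permTbl4.ok oktr1 pair1_0_1 _ (List.mem_singleton.2 rfl) _ (List.mem_singleton.2 rfl),
    pairChk_sound permTbl4.ok oktr1 pair1_0_2 _ (List.mem_singleton.2 rfl) _ (List.mem_singleton.2 rfl),
    pairChk_sound permTbl4.ok oktr1 pair1_0_3 _ (List.mem_singleton.2 rfl) _ (List.mem_singleton.2 rfl),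
    pairChk_sound permTbl4.ok oktr1 pair1_1_0 _ (List.mem_singleton.2 rfl) _ (List.mem_singleton.2 rfl),
    pairChk_sound permTbl4.ok oktr1 pair1_1_1 _ (List.mem_singleton.2 rfl) _ (List.mem_singleton.2 rfl),
    pairChk_sound permTbl4.ok oktr1 pair1_1_2 _ (List.mem_singleton.2 rfl) _ (List.mem_singleton.2 rfl),
    pairChk_sound permTbl4.ok oktr1 pair1_1_3 _ (List.mem_singleton.2 rfl) _ (List.mem_singleton.2 rfl),
    pairChk_sound permTbl4.ok oktr1 pair1_2_0 _ (List.mem_singleton.2 rfl) _ (List.mem_singleton.2 rfl),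
    pairChk_sound permTbl4.ok oktr1 pair1_2_1 _ (List.mem_singleton.2 rfl) _ (List.mem_singleton.2 rfl),
    pairChk_sound permTbl4.ok oktr1 pair1_2_2 _ (List.mem_singleton.2 rfl) _ (List.mem_singleton.2 rfl),
    pairChk_sound permTbl4.ok oktr1 pair1_2_3 _ (List.mem_singleton.2 rfl) _ (List.mem_singleton.2 rfl),
    pairChk_sound permTbl4.ok oktr1 pair1_3_0 _ (List.mem_singleton.2 rfl) _ (List.mem_singleton.2 rfl),
    pairChk_sound permTbl4.ok oktr1 pair1_3_1 _ (List.mem_singleton.2 rfl) _ (List.mem_singleton.2 rfl),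
    pairChk_sound permTbl4.ok oktr1 pair1_3_2 _ (List.mem_singleton.2 rfl) _ (List.mem_singleton.2 rfl),
    pairChk_sound permTbl4.ok oktr1 pair1_3_3 _ (List.mem_singleton.2 rfl) _ (List.mem_singleton.2 rfl)]

lemma pairall1 : PairAll 4 7 tbl4 (tA1 ++ gTerms (5 : ℕ) 4 7 gs1) :=
  pairAll_red permTbl4 (by norm_num) oktm1 oktr1 covers_root4 cov1
    (pairChk_sound permTbl4.ok oktm1 red1) pairok1

end Vale.Agent.P154.Q4
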