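import Vale.Agent.P154.Q4Pair2a

namespace Vale.Agent.P154.Q4

lemma pair2_2_0 : pairChk 67 190 4 10 tbl4 tR2 [[[1, 1, 1, 5], [0, 1, 1, 1], [0, 0, 1, 1], [0, 1, 1, 4]]] [[[1, 1, 1, 1], [0, 1, 1, 1], [1, 1, 3, 3], [1, 1, 1, 5]]] = true := by
  decide +kernel

lemma pair2_2_1 : pairChk 67 190 4 10 tbl4 tR2 [[[1, 1, 1, 5], [0, 1, 1, 1], [0, 0, 1, 1], [0, 1, 1, 4]]] [[[1, 1, 3, 3], [0, 1, 1, 1], [0, 0, 1, 1], [1, 1, 1, 5]]] = true := by
  decide +kernel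

lemma pair2_2_2 : pairChk 67 190 4 10 tbl4 tR2 [[[1, 1, 1, 5], [0, 1, 1, 1], [0, 0, 1, 1], [0, 1, 1, 4]]] [[[1, 1, 1, 5], [0, 1, 1, 1], [0, 0, 1, 1], [0, 1, 1, 4]]] = true := by
  decide +kernel

lemma pair2_2_3 : pairChk 67 190 4 10 tbl4 tR2 [[[1, 1, 1, 5], [0, 1, 1, 1], [0, 0, 1, 1], [0, 1, 1, 4]]] [[[1, 1, 1, 5], [0, 1, 1, 4], [0, 0, 1, 1], [0, 0, 0, 1]]] = true := by
  decide +kernel

lemma pair2_3_0 : pairChk 67 190 4 10 tbl4 tR2 [[[1, 1, 1, 5], [0, 1, 1, 4], [0, 0, 1, 1], [0, 0, 0, 1]]] [[[1, 1, 1, 1], [0, 1, 1, 1], [1, 1, 3, 3], [1, 1, 1, 5]]] = true := by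
  decide +kernel

lemma pair2_3_1 : pairChk 67 190 4 10 tbl4 tR2 [[[1, 1, 1, 5], [0, 1, 1, 4], [0, 0, 1, 1], [0, 0, 0, 1]]] [[[1, 1, 3, 3], [0, 1, 1, 1], [0, 0, 1, 1], [1, 1, 1, 5]]] = true := by
  decide +kernel

lemma pair2_3_2 : pairChk 67 190 4 10 tbl4 tR2 [[[1, 1, 1, 5], [0, 1, 1, 4], [0, 0, 1, 1], [0, 0, 0, 1]]] [[[1, 1, 1, 5], [0, 1, 1, 1], [0, 0, 1, 1], [0, 1, 1, 4]]] = true := by
  decide +kernel

lemma pair2_3_3 : pairChk 67 190 4 10 tbl4 tR2 [[[1, 1, 1, 5], [0, 1, 1, 4], [0, 0, 1, 1], [0, 0, 0, 1]]] [[[1, 1, 1, 5], [0, 1, 1, 4], [0, 0, 1, 1], [0, 0, 0, 1]]] = true := by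
  decide +kernel

lemma pairok2 : PairOk 4 10 tbl4 tR2 cells2 cells2 := by
  intro c hc c' hc'
  simp only [cells2, List.mem_cons, List.not_mem_nil, or_false] at hc hc'
  rcases hc with rfl | rfl | rfl | rfl <;> rcases hc' with rfl | rfl | rfl | rfl
  exacts [pairChk_sound permTbl4.ok oktr2 pair2_0_0 _ (List.mem_singleton.2 rfl) _ (List.mem_singleton.2 rfl),
    pairChk_sound permTbl4.ok oktr2 pair2_0_1 _ (List.mem_singleton.2 rfl) _ (List.mem_singleton.2 rfl),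
    pairChk_sound permTbl4.ok oktr2 pair2_0_2 _ (List.mem_singleton.2 rfl) _ (List.mem_singleton.2 rfl),
    pairChk_sound permTbl4.ok oktr2 pair2_0_3 _ (List.mem_singleton.2 rfl) _ (List.mem_singleton.2 rfl),
    pairChk_sound permTbl4.ok oktr2 pair2_1_0 _ (List.mem_singleton.2 rfl) _ (List.mem_singleton.2 rfl),
    pairChk_sound permTbl4.ok oktr2 pair2_1_1 _ (List.mem_singleton.2 rfl) _ (List.mem_singleton.2 rfl),
    pairChk_sound permTbl4.ok oktr2 pair2_1_2 _ (List.mem_singleton.2 rfl) _ (List.mem_singleton.2 rfl),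
    pairChk_sound permTbl4.ok oktr2 pair2_1_3 _ (List.mem_singleton.2 rfl) _ (List.mem_singleton.2 rfl),
    pairChk_sound permTbl4.ok oktr2 pair2_2_0 _ (List.mem_singleton.2 rfl) _ (List.mem_singleton.2 rfl),
    pairChk_sound permTbl4.ok oktr2 pair2_2_1 _ (List.mem_singleton.2 rfl) _ (List.mem_singleton.2 rfl),
    pairChk_sound permTbl4.ok oktr2 pair2_2_2 _ (List.mem_singleton.2 rfl) _ (List.mem_singleton.2 rfl),
    pairChk_sound permTbl4.ok oktr2 pair2_2_3 _ (List.mem_singleton.2 rfl) _ (List.mem_singleton.2 rfl),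
    pairChk_sound permTbl4.ok oktr2 pair2_3_0 _ (List.mem_singleton.2 rfl) _ (List.mem_singleton.2 rfl),
    pairChk_sound permTbl4.ok oktr2 pair2_3_1 _ (List.mem_singleton.2 rfl) _ (List.mem_singleton.2 rfl),
    pairChk_sound permTbl4.ok oktr2 pair2_3_2 _ (List.mem_singleton.2 rfl) _ (List.mem_singleton.2 rfl),
    pairChk_sound permTbl4.ok oktr2 pair2_3_3 _ (List.mem_singleton.2 rfl) _ (List.mem_singleton.2 rfl)]

lemma pairall2 : PairAll 4 10 tbl4 (tA2 ++ gTerms (5 : ℕ) 4 10 gs2) :=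
  pairAll_red permTbl4 (by norm_num) oktm2 oktr2 covers_root4 cov2
    (pairChk_sound permTbl4.ok oktm2 red2) pairok2

end Vale.Agent.P154.Q4
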